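import Vale.Agent.P354.Bdl.B5

open Set Filter Topology

namespace Vale.Agent.Results.P354.LipCurvature

open Vale.Agent.P354c

/-- Let M be a smooth time oriented spacetime. (1) No future extension with locally Lipschitz
metric goes through an end of M which is a weak null singularity, a corner of two of them,
or far away. (2) If every future timelike curve without end point ends so, there is no such
extension. (3) Some M as in (2) has a future extension of class C^0 and W^{1,q}_loc for all
q < ∞. -/
theorem result :
    (∀ M, IsSpacetime IsSmooth M → (∀ N ι c a, IsFutureExtension IsLip M N ι c →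
      (∀ t ∈ J, ι (a t) = c t) → ¬ Ends M a) ∧
      (AllEnd M → ∀ N ι c, ¬ IsFutureExtension IsLip M N ι c)) ∧
    ∃ M N ι c, IsSpacetime IsSmooth M ∧ AllEnd M ∧
      ∀ q < ⊤, IsFutureExtension (IsC0W1 q) M N ι c :=
  inext

end Vale.Agent.Results.P354.LipCurvature
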